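import Mathlib

/-!
# P340: pure type systems, in de Bruijn notation
-/

namespace Vale.Agent.P340

universe u v

/-- A pure type specification. -/
structure Spec (S : Type u) where
  ax : Set (S × S)
  rule : Set (S × S × S)

/-- Expressions, with variables as de Bruijn indices. -/
inductive Tm (S : Type u) : Type u
  | var (k : ℕ)
  | sort (s : S)
  | app (f a : Tm S)
  | lam (A M : Tm S)
  | pi (A B : Tm S)

namespace Tm

variable {S : Type u}

/-- Lift the variables at least `d` by one. -/
def lift : Tm S → ℕ → Tm S
  | var k, d => if k < d then var k else var (k + 1)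
  | sort s, _ => sort s
  | app f a, d => app (f.lift d) (a.lift d)
  | lam A M, d => lam (A.lift d) (M.lift (d + 1))
  | pi A B, d => pi (A.lift d) (B.lift (d + 1))

/-- Substitute `N` for the variable `d`, lowering the larger variables by one. -/
def subst : Tm S → ℕ → Tm S → Tm S
  | var k, d, N => if k < d then var k else if k = d then N else var (k - 1)
  | sort s, _, _ => sort s
  | app f a, d, N => app (f.subst d N) (a.subst d N)
  | lam A M, d, N => lam (A.subst d N) (M.subst (d + 1) (N.lift 0))
  | pi A B, d, N => pi (A.subst d N) (B.subst (d + 1) (N.lift 0))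

/-- One step of beta reduction, in any subexpression. -/
inductive Step : Tm S → Tm S → Prop
  | beta (A M N : Tm S) : Step (app (lam A M) N) (M.subst 0 N)
  | appL {f f' : Tm S} (a : Tm S) : Step f f' → Step (app f a) (app f' a)
  | appR (f : Tm S) {a a' : Tm S} : Step a a' → Step (app f a) (app f a')
  | lamL {A A' : Tm S} (M : Tm S) : Step A A' → Step (lam A M) (lam A' M)
  | lamR (A : Tm S) {M M' : Tm S} : Step M M' → Step (lam A M) (lam A M')
  | piL {A A' : Tm S} (B : Tm S) : Step A A' → Step (pi A B) (pi A' B)
  | piR (A : Tm S) {B B' : Tm S} : Step B B' → Step (pi A B) (pi A B')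

/-- Beta equality. -/
def BetaEq (M N : Tm S) : Prop := Relation.EqvGen Step M N

/-- An expression with no redex. -/
def Normal (M : Tm S) : Prop := ∀ N, ¬ Step M N

end Tm

variable {S : Type u}

/-- Typing; the newest variable of a context comes first. -/
inductive Derives (P : Spec S) : List (Tm S) → Tm S → Tm S → Prop
  | ax' {s t : S} : (s, t) ∈ P.ax → Derives P [] (.sort s) (.sort t)
  | variable' {Γ : List (Tm S)} {A : Tm S} {s : S} : Derives P Γ A (.sort s) →
      Derives P (A :: Γ) (.var 0) (A.lift 0)
  | weakening {Γ : List (Tm S)} {M B A : Tm S} {s : S} : Derives P Γ M B →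
      Derives P Γ A (.sort s) → Derives P (A :: Γ) (M.lift 0) (B.lift 0)
  | product {Γ : List (Tm S)} {A B : Tm S} {r s t : S} : Derives P Γ A (.sort r) →
      Derives P (A :: Γ) B (.sort s) → (r, s, t) ∈ P.rule →
      Derives P Γ (.pi A B) (.sort t)
  | abstraction {Γ : List (Tm S)} {A B M : Tm S} {s : S} : Derives P (A :: Γ) M B →
      Derives P Γ (.pi A B) (.sort s) → Derives P Γ (.lam A M) (.pi A B)
  | application {Γ : List (Tm S)} {A B M N : Tm S} : Derives P Γ M (.pi A B) →
      Derives P Γ N A → Derives P Γ (.app M N) (B.subst 0 N)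
  | conversion {Γ : List (Tm S)} {M A B : Tm S} {s : S} : Derives P Γ M A →
      Derives P Γ B (.sort s) → Tm.BetaEq A B → Derives P Γ M B

/-- An expression occurring as subject or type of a derivable judgment. -/
def Spec.Legal (P : Spec S) (M : Tm S) : Prop :=
  ∃ Γ N, Derives P Γ M N ∨ Derives P Γ N M

/-- Weak normalization. -/
def Spec.WeaklyNormalizing (P : Spec S) : Prop :=
  ∀ M, P.Legal M → ∃ N, Relation.ReflTransGen Tm.Step M N ∧ N.Normal

/-- Strong normalization. -/
def Spec.StronglyNormalizing (P : Spec S) : Prop :=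
  ∀ M, P.Legal M → ¬ ∃ f : ℕ → Tm S, f 0 = M ∧ ∀ n, Tm.Step (f n) (f (n + 1))

end Vale.Agent.P340
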