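import Vale.Agent.P340.Defs

/-!
# P340: counterexamples live on finite specifications
-/

namespace Vale.Agent.P340

universe u v

variable {S : Type u} {T : Type v}

namespace Tm

/-- Rename sorts. -/
def map (g : S → T) : Tm S → Tm T
  | var k => var k
  | sort s => sort (g s)
  | app f a => app (f.map g) (a.map g)
  | lam A M => lam (A.map g) (M.map g)
  | pi A B => pi (A.map g) (B.map g)

theorem map_lift (g : S → T) : ∀ (M : Tm S) (d : ℕ), (M.lift d).map g = (M.map g).lift d
  | var k, d => by simp only [lift, map]; split <;> rfl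
  | sort _, _ => rfl
  | app f a, d => by simp only [lift, map, map_lift g f, map_lift g a]
  | lam A M, d => by simp only [lift, map, map_lift g A, map_lift g M]
  | pi A B, d => by simp only [lift, map, map_lift g A, map_lift g B]

theorem map_subst (g : S → T) : ∀ (M : Tm S) (d : ℕ) (N : Tm S),
    (M.subst d N).map g = (M.map g).subst d (N.map g)
  | var k, d, N => by simp only [subst, map]; split <;> [rfl; (split <;> rfl)]
  | sort _, _, _ => rfl
  | app f a, d, N => by simp only [subst, map, map_subst g f, map_subst g a]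
  | lam A M, d, N => by simp only [subst, map, map_subst g A, map_subst g M, map_lift]
  | pi A B, d, N => by simp only [subst, map, map_subst g A, map_subst g B, map_lift]

theorem map_map {U : Type*} (g : S → T) (h : T → U) : ∀ M : Tm S,
    (M.map g).map h = M.map (h ∘ g)
  | var _ => rfl
  | sort _ => rfl
  | app f a => by simp only [map, map_map g h f, map_map g h a]
  | lam A M => by simp only [map, map_map g h A, map_map g h M]
  | pi A B => by simp only [map, map_map g h A, map_map g h B]

theorem map_id : ∀ M : Tm S, M.map id = M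
  | var _ => rfl
  | sort _ => rfl
  | app f a => by simp only [map, map_id f, map_id a]
  | lam A M => by simp only [map, map_id A, map_id M]
  | pi A B => by simp only [map, map_id A, map_id B]

theorem Step.map (g : S → T) {M N : Tm S} (h : Step M N) : Step (M.map g) (N.map g) := by
  induction h with
  | beta A M N => rw [Tm.map_subst]; exact Step.beta _ _ _
  | appL a _ ih => exact Step.appL _ ih
  | appR f _ ih => exact Step.appR _ ih
  | lamL M _ ih => exact Step.lamL _ ih
  | lamR A _ ih => exact Step.lamR _ ih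
  | piL B _ ih => exact Step.piL _ ih
  | piR A _ ih => exact Step.piR _ ih

theorem Step.of_map (g : S → T) : ∀ {M : Tm S} {N : Tm T}, Step (M.map g) N →
    ∃ N', Step M N'
  | .var _, _, h => by cases h
  | .sort _, _, h => by cases h
  | .app f a, _, h => by
      cases f with
      | lam A M => exact ⟨_, Step.beta A M a⟩
      | var k =>
        cases h with
        | appL _ h' => exact ⟨_, Step.appL a (Step.of_map g h').choose_spec⟩
        | appR _ h' => exact ⟨_, Step.appR _ (Step.of_map g h').choose_spec⟩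
      | sort s =>
        cases h with
        | appL _ h' => exact ⟨_, Step.appL a (Step.of_map g h').choose_spec⟩
        | appR _ h' => exact ⟨_, Step.appR _ (Step.of_map g h').choose_spec⟩
      | app f1 f2 =>
        cases h with
        | appL _ h' => exact ⟨_, Step.appL a (Step.of_map g h').choose_spec⟩
        | appR _ h' => exact ⟨_, Step.appR _ (Step.of_map g h').choose_spec⟩
      | pi f1 f2 =>
        cases h with
        | appL _ h' => exact ⟨_, Step.appL a (Step.of_map g h').choose_spec⟩
        | appR _ h' => exact ⟨_, Step.appR _ (Step.of_map g h').choose_spec⟩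
  | .lam A M, _, h => by
      cases h with
      | lamL _ h' => exact ⟨_, Step.lamL M (Step.of_map g h').choose_spec⟩
      | lamR _ h' => exact ⟨_, Step.lamR A (Step.of_map g h').choose_spec⟩
  | .pi A B, _, h => by
      cases h with
      | piL _ h' => exact ⟨_, Step.piL B (Step.of_map g h').choose_spec⟩
      | piR _ h' => exact ⟨_, Step.piR A (Step.of_map g h').choose_spec⟩

theorem Normal.map (g : S → T) {M : Tm S} (h : M.Normal) : (M.map g).Normal := fun _ hs =>
  h _ (Step.of_map g hs).choose_spec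

theorem BetaEq.map (g : S → T) {M N : Tm S} (h : BetaEq M N) :
    BetaEq (M.map g) (N.map g) := by
  induction h with
  | rel a b hab => exact .rel _ _ (hab.map g)
  | refl a => exact .refl _
  | symm a b _ ih => exact .symm _ _ ih
  | trans a b c _ _ ih1 ih2 => exact .trans _ _ _ ih1 ih2

end Tm

/-- The image of a specification under a map of sorts. -/
def Spec.map (g : S → T) (P : Spec S) : Spec T where
  ax := (fun p => (g p.1, g p.2)) '' P.ax
  rule := (fun p => (g p.1, g p.2.1, g p.2.2)) '' P.rule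

theorem Derives.map (g : S → T) {P : Spec S} {Γ : List (Tm S)} {M A : Tm S}
    (h : Derives P Γ M A) : Derives (P.map g) (Γ.map (Tm.map g)) (M.map g) (A.map g) := by
  induction h with
  | ax' hp => exact .ax' ⟨_, hp, rfl⟩
  | variable' _ ih => rw [Tm.map_lift]; exact .variable' ih
  | weakening _ _ ih1 ih2 => rw [Tm.map_lift, Tm.map_lift]; exact .weakening ih1 ih2
  | product _ _ hr ih1 ih2 => exact .product ih1 ih2 ⟨_, hr, rfl⟩
  | abstraction _ _ ih1 ih2 => exact .abstraction ih1 ih2
  | application _ _ ih1 ih2 => rw [Tm.map_subst]; exact .application ih1 ih2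
  | conversion _ _ he ih1 ih2 => exact .conversion ih1 ih2 (he.map g)

theorem Derives.mono {P Q : Spec S} (hA : P.ax ⊆ Q.ax) (hR : P.rule ⊆ Q.rule)
    {Γ : List (Tm S)} {M A : Tm S} (h : Derives P Γ M A) : Derives Q Γ M A := by
  induction h with
  | ax' hp => exact .ax' (hA hp)
  | variable' _ ih => exact .variable' ih
  | weakening _ _ ih1 ih2 => exact .weakening ih1 ih2
  | product _ _ hr ih1 ih2 => exact .product ih1 ih2 (hR hr)
  | abstraction _ _ ih1 ih2 => exact .abstraction ih1 ih2
  | application _ _ ih1 ih2 => exact .application ih1 ih2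
  | conversion _ _ he ih1 ih2 => exact .conversion ih1 ih2 he

theorem Derives.exists_ax {P : Spec S} {Γ : List (Tm S)} {M A : Tm S}
    (h : Derives P Γ M A) : P.ax.Nonempty := by
  induction h with
  | ax' hp => exact ⟨_, hp⟩
  | variable' _ ih => exact ih
  | weakening _ _ ih _ => exact ih
  | product _ _ _ ih _ => exact ih
  | abstraction _ _ ih _ => exact ih
  | application _ _ ih _ => exact ih
  | conversion _ _ _ ih _ => exact ih

theorem Derives.exists_finite {P : Spec S} {Γ : List (Tm S)} {M A : Tm S}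
    (h : Derives P Γ M A) : ∃ (a : Set (S × S)) (r : Set (S × S × S)), a.Finite ∧ r.Finite ∧
      a ⊆ P.ax ∧ r ⊆ P.rule ∧ Derives ⟨a, r⟩ Γ M A := by
  have join : ∀ {a a' : Set (S × S)} {r r' : Set (S × S × S)} {Γ : List (Tm S)} {M A : Tm S},
      Derives ⟨a, r⟩ Γ M A → Derives ⟨a ∪ a', r ∪ r'⟩ Γ M A ∧ Derives ⟨a' ∪ a, r' ∪ r⟩ Γ M A :=
    fun h => ⟨h.mono Set.subset_union_left Set.subset_union_left,
      h.mono Set.subset_union_right Set.subset_union_right⟩
  induction h with
  | @ax' s t hp =>
    exact ⟨{(s, t)}, ∅, Set.finite_singleton _, Set.finite_empty,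
      Set.singleton_subset_iff.mpr hp, Set.empty_subset _, .ax' rfl⟩
  | variable' _ ih =>
    obtain ⟨a, r, ha, hr, sa, sr, d⟩ := ih
    exact ⟨a, r, ha, hr, sa, sr, .variable' d⟩
  | weakening _ _ ih1 ih2 =>
    obtain ⟨a, r, ha, hr, sa, sr, d⟩ := ih1
    obtain ⟨a', r', ha', hr', sa', sr', d'⟩ := ih2
    exact ⟨a ∪ a', r ∪ r', ha.union ha', hr.union hr', Set.union_subset sa sa',
      Set.union_subset sr sr', .weakening (join d).1 (join d').2⟩
  | @product Γ A B x y z _ _ hm ih1 ih2 =>
    obtain ⟨a, r, ha, hr, sa, sr, d⟩ := ih1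
    obtain ⟨a', r', ha', hr', sa', sr', d'⟩ := ih2
    refine ⟨a ∪ a', insert (x, y, z) (r ∪ r'), ha.union ha', (hr.union hr').insert _,
      Set.union_subset sa sa', Set.insert_subset hm (Set.union_subset sr sr'),
      .product ?_ ?_ (Set.mem_insert _ _)⟩
    · exact d.mono Set.subset_union_left (Set.subset_union_left.trans (Set.subset_insert _ _))
    · exact d'.mono Set.subset_union_right (Set.subset_union_right.trans (Set.subset_insert _ _))
  | abstraction _ _ ih1 ih2 =>
    obtain ⟨a, r, ha, hr, sa, sr, d⟩ := ih1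
    obtain ⟨a', r', ha', hr', sa', sr', d'⟩ := ih2
    exact ⟨a ∪ a', r ∪ r', ha.union ha', hr.union hr', Set.union_subset sa sa',
      Set.union_subset sr sr', .abstraction (join d).1 (join d').2⟩
  | application _ _ ih1 ih2 =>
    obtain ⟨a, r, ha, hr, sa, sr, d⟩ := ih1
    obtain ⟨a', r', ha', hr', sa', sr', d'⟩ := ih2
    exact ⟨a ∪ a', r ∪ r', ha.union ha', hr.union hr', Set.union_subset sa sa',
      Set.union_subset sr sr', .application (join d).1 (join d').2⟩
  | conversion _ _ he ih1 ih2 =>
    obtain ⟨a, r, ha, hr, sa, sr, d⟩ := ih1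
    obtain ⟨a', r', ha', hr', sa', sr', d'⟩ := ih2
    exact ⟨a ∪ a', r ∪ r', ha.union ha', hr.union hr', Set.union_subset sa sa',
      Set.union_subset sr sr', .conversion (join d).1 (join d').2 he⟩

/-- A weakly but not strongly normalizing specification yields one on a finite type of sorts. -/
theorem exists_finite_counterexample (P : Spec S) (hw : P.WeaklyNormalizing)
    (hs : ¬ P.StronglyNormalizing) :
    ∃ (n : ℕ) (Q : Spec (Fin n)), Q.WeaklyNormalizing ∧ ¬ Q.StronglyNormalizing := by
  classical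
  simp only [Spec.StronglyNormalizing, not_forall, not_not] at hs
  obtain ⟨M, ⟨Γ, N, hleg⟩, f, hf0, hf⟩ := hs
  obtain ⟨a, r, ha, hr, sa, sr, hd, hne⟩ : ∃ (a : Set (S × S)) (r : Set (S × S × S)),
      a.Finite ∧ r.Finite ∧ a ⊆ P.ax ∧ r ⊆ P.rule ∧ (⟨a, r⟩ : Spec S).Legal M ∧ a.Nonempty := by
    rcases hleg with h | h
    · obtain ⟨a, r, ha, hr, sa, sr, d⟩ := h.exists_finite
      exact ⟨a, r, ha, hr, sa, sr, ⟨Γ, N, Or.inl d⟩, d.exists_ax⟩
    · obtain ⟨a, r, ha, hr, sa, sr, d⟩ := h.exists_finite
      exact ⟨a, r, ha, hr, sa, sr, ⟨Γ, N, Or.inr d⟩, d.exists_ax⟩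
  let V : Finset S := ha.toFinset.image Prod.fst ∪ ha.toFinset.image Prod.snd ∪
    hr.toFinset.image (fun p => p.1) ∪ hr.toFinset.image (fun p => p.2.1) ∪
    hr.toFinset.image (fun p => p.2.2)
  have hVa : ∀ p ∈ a, p.1 ∈ V ∧ p.2 ∈ V := fun p hp => by
    simp only [V, Finset.mem_union, Finset.mem_image, Set.Finite.mem_toFinset]
    exact ⟨Or.inl (Or.inl (Or.inl (Or.inl ⟨p, hp, rfl⟩))),
      Or.inl (Or.inl (Or.inl (Or.inr ⟨p, hp, rfl⟩)))⟩
  have hVr : ∀ p ∈ r, p.1 ∈ V ∧ p.2.1 ∈ V ∧ p.2.2 ∈ V := fun p hp => by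
    simp only [V, Finset.mem_union, Finset.mem_image, Set.Finite.mem_toFinset]
    exact ⟨Or.inl (Or.inl (Or.inr ⟨p, hp, rfl⟩)), Or.inl (Or.inr ⟨p, hp, rfl⟩),
      Or.inr ⟨p, hp, rfl⟩⟩
  obtain ⟨p0, hp0⟩ := hne
  let e : {x // x ∈ V} ≃ Fin V.card := V.equivFin
  let g : S → Fin V.card := fun s =>
    if h : s ∈ V then e ⟨s, h⟩ else e ⟨p0.1, (hVa p0 hp0).1⟩
  let h : Fin V.card → S := fun i => (e.symm i).1
  have hgh : g ∘ h = id := funext fun i => by
    show g (e.symm i).1 = i
    simp only [g, dif_pos (e.symm i).2, Subtype.coe_eta, Equiv.apply_symm_apply]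
  have hhg : ∀ s ∈ V, h (g s) = s := fun s hs => by
    simp only [g, h, dif_pos hs, Equiv.symm_apply_apply]
  let Q : Spec (Fin V.card) := (⟨a, r⟩ : Spec S).map g
  refine ⟨V.card, Q, fun K hK => ?_, fun hsn => ?_⟩
  · have hA : (Q.map h).ax ⊆ P.ax := by
      rintro _ ⟨_, ⟨p, hp, rfl⟩, rfl⟩
      simp only [hhg _ (hVa p hp).1, hhg _ (hVa p hp).2]
      exact sa hp
    have hR : (Q.map h).rule ⊆ P.rule := by
      rintro _ ⟨_, ⟨p, hp, rfl⟩, rfl⟩
      simp only [hhg _ (hVr p hp).1, hhg _ (hVr p hp).2.1, hhg _ (hVr p hp).2.2]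
      exact sr hp
    obtain ⟨Δ, L, hKL⟩ := hK
    obtain ⟨R, hred, hnf⟩ := hw (K.map h) ⟨Δ.map (Tm.map h), L.map h,
      hKL.imp (fun d => (d.map h).mono hA hR) (fun d => (d.map h).mono hA hR)⟩
    refine ⟨R.map g, ?_, hnf.map g⟩
    have e1 : (K.map h).map g = K := by rw [Tm.map_map, hgh, Tm.map_id]
    have := Relation.ReflTransGen.lift (Tm.map g) (fun _ _ hst => Tm.Step.map g hst) _ _ hred
    simp only [Function.onFun, e1] at this
    exact this
  · obtain ⟨Δ, L, hML⟩ := hd
    exact hsn (M.map g) ⟨Δ.map (Tm.map g), L.map g,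
      hML.imp (fun d => d.map g) (fun d => d.map g)⟩
      ⟨fun n => (f n).map g, congrArg (Tm.map g) hf0, fun n => (hf n).map g⟩

/-- The conjecture is equivalent to its restriction to finitely many sorts. -/
theorem bgk_iff_finite :
    (∀ (S : Type u) (P : Spec S), P.WeaklyNormalizing → P.StronglyNormalizing) ↔
      ∀ (n : ℕ) (Q : Spec (Fin n)), Q.WeaklyNormalizing → Q.StronglyNormalizing := by
  constructor
  · intro H n Q hw
    by_contra hs
    let q : Fin n → ULift.{u} (Fin n) := ULift.up
    have hid : ULift.down ∘ q = id := rfl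
    refine hs fun M hM hinf => ?_
    obtain ⟨f, hf0, hf⟩ := hinf
    have hwU : (Q.map q).WeaklyNormalizing := fun K ⟨Δ, L, hKL⟩ => by
      have hQ : (Q.map q).map ULift.down = Q := by
        obtain ⟨a, r⟩ := Q
        simp [Spec.map, q, Set.image_image]
      obtain ⟨R, hred, hnf⟩ := hw (K.map ULift.down) ⟨Δ.map (Tm.map ULift.down), L.map ULift.down,
        hKL.imp (fun d => hQ ▸ d.map ULift.down) (fun d => hQ ▸ d.map ULift.down)⟩
      refine ⟨R.map q, ?_, hnf.map q⟩
      have e1 : (K.map ULift.down).map q = K := by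
        rw [Tm.map_map, show q ∘ ULift.down = id from rfl, Tm.map_id]
      have := Relation.ReflTransGen.lift (Tm.map q) (fun _ _ hst => Tm.Step.map q hst) _ _ hred
      simp only [Function.onFun, e1] at this
      exact this
    obtain ⟨Δ, L, hML⟩ := hM
    exact H _ (Q.map q) hwU (M.map q) ⟨Δ.map (Tm.map q), L.map q,
      hML.imp (fun d => d.map q) (fun d => d.map q)⟩
      ⟨fun n => (f n).map q, congrArg (Tm.map q) hf0, fun n => (hf n).map q⟩
  · intro H S P hw
    by_contra hs
    obtain ⟨n, Q, hQw, hQs⟩ := exists_finite_counterexample P hw hs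
    exact hQs (H n Q hQw)

end Vale.Agent.P340
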